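import Vale.Agent.P011UG.Main
import Vale.Agent.P011UHB.Spec
import Vale.Agent.P011UGC5.Act

/-!
The normal forms of the quadratic step and of the split forms.
-/

set_option autoImplicit false
set_option linter.all false

namespace Vale.Agent.P011UG2

open Matrix Subgroup Vale.Agent.P011L Vale.Agent.P183CH Vale.Agent.P183CH.RG Vale.Agent.P011U
  Vale.Agent.P183CH.Chev Vale.Agent.P011UG Vale.Agent.P011UHB

/-- OPX2: the quadratic step, normal form. -/
def OPX2 : Prop := AllI fun k K _ _ _ D T => ∀ L : IntermediateField k K, Module.finrank k L = 2 →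
  QS T L → (¬TyA D.R ∨ In1 T L) → ¬T.Ani ∨ ∃ (T' : Tw k (D.grp K)) (θ : _) (π : _), Eqv T T' ∧
    Op2 T' L θ π ∧ (In1 T L → π = 1)

section

variable {R : RS} {K G : Type} [Field K] [Group G] {Γ : RG R K G} (hR : R.Ok) (hΓ : Γ.Ok)
include hR

theorem PJ_empty : PJ Γ ∅ = Γ.Bo :=
  le_antisymm (sup_le (sup_le (X_le fun γ e e' => by
    obtain rfl : γ = 0 := funext fun i => e i id
    exact absurd le_rfl (hR.not_both e' le_rfl)) T_le_Bo) U_le_Bo)
    (sup_le le_sup_right (le_sup_right.trans le_sup_left))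

include hΓ

theorem nm_neg {ψ : G →* G} {σ : K →+* K} {π : Equiv.Perm (Fin R.r)} {c : Fin R.r → Kˣ}
    (hπ : Dg R π) (h : ∀ i u, ψ (Γ.x (R.α i) u) = Γ.x (-R.α (π i)) (c i * σ u) ∧
      ψ (Γ.x (-R.α i) u) = Γ.x (R.α (π i)) ((c i)⁻¹ * σ u)) :
    ∃ χ, Nm Γ R.Φ ψ σ (LinearEquiv.neg ℤ * P011UC.pa R π) χ := by
  obtain ⟨w, hw⟩ := hR.exists_Lg Set.univ
  obtain ⟨n, -, hn⟩ := exists_rep' (Γ := Γ) hw.1
  obtain ⟨s, h1, h2⟩ := star hR hΓ hw
  choose d hd using fun i => hΓ.rep_conj hR hn (hR.simple i)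
  have h3 : Std Γ ψ σ n (fun i => (d (s⁻¹ (π i)))⁻¹ * c i) (s⁻¹ * π) :=
    ⟨fun i j => (h1 _ _).symm.trans (by simpa using hπ i j), fun i u => ⟨by
      rw [(h i u).1, (hd _ _).1, h2]
      simp [mul_assoc], by
      rw [(h i u).2, (hd _ _).2, h2]
      simp [mul_assoc, mul_left_comm]⟩⟩
  have e : w * pq (s⁻¹ * π) = LinearEquiv.neg ℤ * P011UC.pa R π := RS.aut_ext fun i => by
    rw [RS.mul_app, RS.mul_app, pq_α, h2, show P011UC.pa R π (R.α i) = _ from pq_α i]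
    simp
  have : ∀ γ, ∃ a : Kˣ, γ ∈ R.Φ → ∀ u, ψ (Γ.x γ u) = Γ.x (w (pq (s⁻¹ * π) γ)) (a * σ u) ∧
      ψ (Γ.x (-γ) u) = Γ.x (-w (pq (s⁻¹ * π) γ)) ((a⁻¹ : Kˣ) * σ u) := fun γ => by
    by_cases m : γ ∈ R.Φ
    · obtain ⟨a, ha⟩ := P011UP.std_x hΓ h3 hR γ m
      obtain ⟨b, hb⟩ := hΓ.rep_conj hR hn (P011UP.pm_mem hR h3.1 γ m)
      exact ⟨b * a, fun _ u => ⟨by rw [(ha u).1, (hb _).1, Units.val_mul, mul_assoc]; rfl,
        by rw [(ha u).2, (hb _).2, mul_inv, Units.val_mul, mul_assoc]; rfl⟩⟩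
    · exact ⟨1, fun c => absurd c m⟩
  choose χ hχ using this
  exact ⟨χ, fun γ m => ⟨1, fun u => by rw [← e]; simpa using hχ γ m u⟩⟩

end

variable {k K : Type} [Field k] [Field K] [Algebra k K] {D : Chev}

theorem fixP_of [Algebra.IsAlgebraic k K] {T : Tw k (D.grp K)} {L : IntermediateField k K}
    (h : QS T L) : FixP (P011UC.res T L) ∅ := h.imp fun y e σ => by
  rw [PJ_empty (R_ok D)]
  exact e _ fun x hx => σ.commutes ⟨x, hx⟩

theorem ext_gen {H : Type} [Group H] {f f' : D.grp K →* H}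
    (h : ∀ i u, f ((GG D K).x (D.R.α i) u) = f' ((GG D K).x (D.R.α i) u) ∧
      f ((GG D K).x (-D.R.α i) u) = f' ((GG D K).x (-D.R.α i) u)) : f = f' :=
  MonoidHom.eq_of_eqOn_dense (P011UI.gen_top D K) (by
    rintro g ⟨i, t, e | e⟩
    · obtain rfl : g = (GG D K).x (D.α i) t := Subtype.ext ((Units.ext e).trans (GG_e i t).symm)
      exact (h i t).1
    · obtain rfl : g = (GG D K).x (-D.α i) t := Subtype.ext ((Units.ext e).trans (GG_f i t).symm)
      exact (h i t).2)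

theorem nrm : NRM := by
  intro k K _ _ _ _ _ D hD T L _ h1 h2
  have : Infinite L := Infinite.of_injective _ (algebraMap k L).injective
  have : Infinite K := Infinite.of_injective _ (algebraMap k K).injective
  have : IsSepClosure L K :=
    ⟨IsSepClosure.sep_closed k, Algebra.isSeparable_tower_top_of_isSeparable k L K⟩
  obtain ⟨ψ, p1, p2, p, hp⟩ := pin L K D hD _ (fixP_of h1)
  refine ⟨_, P011UC.eqv_tr T ψ p1 p2, fun σ a => ?_⟩
  obtain ⟨_, _, b⟩ := h2 σ a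
  have h3 : Std (GG D K) ((P011UC.tr T ψ p1 p2).a σ) σ 1 1 _ :=
    hp (L.fixingSubgroupEquiv ⟨σ, fun x => a x x.2⟩)
  rw [inn_of hD (P011UC.eqv_tr T ψ p1 p2) b h3] at h3
  exact DFunLike.congr_fun (ext_gen (f := ((P011UC.tr T ψ p1 p2).a σ).toMonoidHom) fun i u => by
    simpa [fm_x] using h3.2 i u)

theorem opx2 : OPX2 := by
  intro k K _ _ _ _ _ D hD T L hL h1 h2
  classical
  have : Infinite K := Infinite.of_injective _ (algebraMap k K).injective
  have hR := R_ok D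
  obtain ⟨B, s, p, π, c, e, hs, hm, h3, h4, h5⟩ := core k K D hD T L _ hL (P011UC.res_res T L)
    (fixP_of h1) (h2.imp_right fun a σ b => a σ fun x hx => b ⟨x, hx⟩)
  refine or_iff_not_imp_left.2 fun an => ⟨B, s, π, e, ⟨fun a => hs fun x => a x x.2, h4,
    fun σ a => ⟨_, h3 ⟨σ, fun x => a x x.2⟩⟩,
    nm_neg hR GG_ok (ψ := (B.a s).toMonoidHom) (σ := (s : K →+* K)) h4 h5⟩,
    fun a => Equiv.ext fun i => by_contra fun ne => ?_⟩
  have h6 : ∀ τ : L.fixingSubgroup, Std (GG D K) (B.a τ) τ.1 1 1 1 := fun τ => by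
    obtain ⟨_, _, b⟩ := a τ fun x hx => τ.2 ⟨x, hx⟩
    exact inn_of hD e b (h3 τ) ▸ h3 τ
  have h7 : π (π i) = i := by
    have := ((h6 ⟨s * s, (hm _ _).2 Iff.rfl⟩).2 i 1).1
    simp only [map_mul, MulAut.mul_apply, (h5 _ _).1, (h5 _ _).2, one_mul, mul_one, inv_one] at this
    exact RS.α_inj (GG_ok.x_eq hR (hR.simple _) (hR.simple _) (by simp) this)
  let m : Fin D.R.r → ℤ := Pi.single i 1 - Pi.single (π i) 1
  obtain ⟨j, hj⟩ : ∃ j, P011UP.pw m (D.R.α j) ≠ 0 := by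
    by_contra c
    have := congrFun (P011UP.mul_inj hR (m := m) (m' := 0) (funext fun j => by
      rw [← P011UP.pw_α, mulVec_zero]
      exact not_not.1 fun e => c ⟨j, e⟩)) i
    simp [m, Pi.single_eq_of_ne' (show π i ≠ i from ne)] at this
  have h8 : ∀ t, P011UP.co (GG_ok (D := D) (k := K)) m t =
      (GG D K).h i t * ((GG D K).h (π i) t)⁻¹ := fun t => by
    rw [P011UP.co_eq, ← GG_ok.hT_single, ← GG_ok.hT_single, ← map_inv, ← map_mul]
    refine congrArg _ (funext fun j => ?_)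
    simp only [m, Pi.sub_apply, _root_.zpow_sub, Pi.mul_apply, Pi.inv_apply, Pi.single_apply,
      Pi.mulSingle_apply]
    split_ifs <;> simp
  have h9 : ∀ (τ : L.fixingSubgroup) j t,
      B.a τ ((GG D K).h j t) = (GG D K).h j (Units.map (τ.1 : K →* K) t) := fun τ j t => by
    simpa using P011UP.std_h GG_ok (h6 τ) j t
  refine P011UP.not_ani (hR.simple j) hj 1 (fun σ t => ?_) (P011UC.eqv_ani e (not_not.1 an))
  rw [one_mul, one_mul, inv_one, mul_one, mul_one, h8, h8, map_mul, map_inv]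
  by_cases b : σ ∈ L.fixingSubgroup
  · rw [h9 ⟨σ, b⟩, h9 ⟨σ, b⟩]
  · obtain ⟨τ, rfl⟩ : ∃ τ : L.fixingSubgroup, σ = s * τ :=
      ⟨⟨s⁻¹ * σ, by simp [hm, hs, b]⟩, by simp⟩
    rw [map_mul, MulAut.mul_apply, MulAut.mul_apply, h9, h9,
      P011UGC5.neg_h GG_ok hR (σ := (s : K →+* K)) (h5 i),
      P011UGC5.neg_h GG_ok hR (σ := (s : K →+* K)) (h5 (π i)), h7, map_inv, map_inv, inv_inv]
    exact GG_ok.T_comm (inv_mem (h_mem _ _)) (h_mem _ _)

end Vale.Agent.P011UG2
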